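import Vale.Agent.P181.H280.Main

set_option autoImplicit false

open scoped TensorProduct

namespace Vale.Agent.P181.H219

open Vale.Agent.P181 Vale.Agent.P181.H280 MvPolynomial

variable {n : ℕ}

/-- The products of the rows of an array of variables. -/
noncomputable def mo {a b : ℕ} (c : Fin a × Fin b → Fin n) : Fin a → MvPolynomial (Fin n) ℂ :=
  fun i => ∏ j, X (c (i, j))

/-- The relations of a highest weight vector on products of variables, for all `M ≤ K`. -/
theorem rel_mo {a b : ℕ} (lam : Fin n → ℕ)
    (l : (Fin a → Fin b → (Fin n → ℂ)) →₀ ℂ) (hx : elOf l ∈ hwSpace lam (plethAct a b n))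
    (M K : Fin n) (hMK : M ≤ K) (c : Fin a × Fin b → Fin n) :
    ∑ p, (if c p = M then formOf l (mo (Function.update c p K)) else 0) =
      (if K = M then (lam M : ℂ) else 0) * formOf l (mo c) := by
  classical
  let D' : Derivation ℂ (MvPolynomial (Fin n) ℂ) (MvPolynomial (Fin n) ℂ) :=
    (X K : MvPolynomial (Fin n) ℂ) • pderiv M
  have hD' : ∀ Q, D' Q = X K * pderiv M Q := fun Q => rfl
  have hD'X : ∀ j, D' (X j) = if j = M then X K else 0 := by
    intro j
    rw [hD']
    by_cases hj : j = M
    · rw [hj, pderiv_X_self, if_pos rfl, mul_one]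
    · rw [pderiv_X_of_ne hj, if_neg hj, mul_zero]
  let y : Fin a × Fin b → MvPolynomial (Fin n) ℂ := fun p => X (c p)
  have hy : ∀ p, y p = X (c p) := fun p => rfl
  have hw' : mo c = fun i => ∏ j, y (i, j) := rfl
  -- the terms
  have hterm : ∀ p, (if c p = M then formOf l (mo (Function.update c p K)) else 0) =
      rowProd b (formOf l) (Function.update y p (D' (y p))) := by
    intro p
    rw [hy, hD'X]
    split_ifs with hcp
    · rw [rowProd_apply]
      congr 1
      funext i
      apply Finset.prod_congr rfl
      intro j _
      by_cases hp : (i, j) = p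
      · rw [hp, Function.update_self, Function.update_self]
      · rw [Function.update_of_ne hp, Function.update_of_ne hp]
    · exact (MultilinearMap.map_update_zero _ _ _).symm
  rw [Finset.sum_congr rfl (fun p _ => hterm p)]
  -- the action of a matrix
  have hact : ∀ (g : Matrix (Fin n) (Fin n) ℂ) (p : Fin a → Fin b → MvPolynomial (Fin n) ℂ),
      IsBorel g → (∀ i j, evL n (p i j) = fun v => (Matrix.toLin' g v) (c (i, j))) →
      formOf l (fun i => ∏ j, p i j) = (∏ i, g i i ^ lam i) * formOf l (mo c) := by
    intro g p hg hp
    have h1 := formOf_lin l p (fun i j => (LinearMap.proj (c (i, j))) ∘ₗ Matrix.toLin' g)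
      (fun i j => hp i j)
    rw [h1, ← symEval_act (Matrix.toLin' g) (fun i j => LinearMap.proj (c (i, j))) (elOf l)]
    have h2 : symMap a (symMap b (Matrix.toLin' g)) (elOf l) =
        (∏ i, g i i ^ lam i) • elOf l := hx g hg
    rw [h2, map_smul, smul_eq_mul]
    congr 1
    exact (formOf_lin l (fun i j => X (c (i, j))) (fun i j => LinearMap.proj (c (i, j)))
      (fun i j => evL_X _)).symm
  rcases eq_or_lt_of_le hMK with hkm | hkm
  · -- weights
    have hKM : K = M := hkm.symm
    rw [if_pos hKM]
    have h1 : ∀ p, rowProd b (formOf l) (Function.update y p (D' (y p))) =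
        (if c p = M then 1 else 0) * formOf l (mo c) := by
      intro p
      rw [hy, hD'X]
      split_ifs with hcp
      · rw [one_mul, hKM, ← hcp, hw']
        have h2 : Function.update y p (X (c p)) = y := Function.update_eq_self p y
        rw [h2, rowProd_apply]
      · rw [zero_mul]
        exact MultilinearMap.map_update_zero _ _ _
    rw [Finset.sum_congr rfl (fun p _ => h1 p), ← Finset.sum_mul]
    by_cases hz : formOf l (mo c) = 0
    · rw [hz, mul_zero, mul_zero]
    · congr 1
      have h3 := hact (Matrix.diagonal (Function.update 1 M 2))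
        (fun i j => (Function.update (1 : Fin n → ℂ) M 2 (c (i, j))) • X (c (i, j))) (by
          constructor
          · intro i j hij
            exact Matrix.diagonal_apply_ne _ hij.ne'
          · intro i
            rw [Matrix.diagonal_apply_eq]
            by_cases hi : i = M
            · rw [hi, Function.update_self]; norm_num
            · rw [Function.update_of_ne hi]; norm_num) (by
          intro i j
          rw [map_smul, evL_X]
          funext v
          rw [Matrix.toLin'_apply, Matrix.mulVec_diagonal]
          rfl)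
      have h4 : formOf l (fun i => ∏ j,
          (Function.update (1 : Fin n → ℂ) M 2 (c (i, j))) •
            (X (c (i, j)) : MvPolynomial (Fin n) ℂ)) =
          (∏ p : Fin a × Fin b, Function.update (1 : Fin n → ℂ) M 2 (c p)) *
            formOf l (mo c) := by
        have h5 := MultilinearMap.map_smul_univ (rowProd b (formOf l))
          (fun p : Fin a × Fin b => Function.update (1 : Fin n → ℂ) M 2 (c p)) y
        rw [rowProd_apply, rowProd_apply, ← hw', smul_eq_mul] at h5
        exact h5
      rw [h4] at h3
      have h6 := mul_right_cancel₀ hz h3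
      have h7 : ∏ p : Fin a × Fin b, Function.update (1 : Fin n → ℂ) M 2 (c p) =
          2 ^ (Finset.univ.filter (fun p : Fin a × Fin b => c p = M)).card := by
        rw [← Finset.prod_const, Finset.prod_filter]
        apply Finset.prod_congr rfl
        intro p _
        by_cases hp : c p = M
        · rw [hp, Function.update_self, if_pos rfl]
        · rw [Function.update_of_ne hp, if_neg hp]
          rfl
      have h8 : ∏ i, (Matrix.diagonal (Function.update (1 : Fin n → ℂ) M 2)) i i ^ lam i =
          2 ^ lam M := by
        rw [Finset.prod_eq_single M]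
        · rw [Matrix.diagonal_apply_eq, Function.update_self]
        · intro i _ hi
          rw [Matrix.diagonal_apply_eq, Function.update_of_ne hi]
          simp
        · intro hh
          exact absurd (Finset.mem_univ _) hh
      rw [h7, h8] at h6
      have h9 : (Finset.univ.filter (fun p : Fin a × Fin b => c p = M)).card = lam M := by
        have h10 : (2 : ℕ) ^ (Finset.univ.filter
            (fun p : Fin a × Fin b => c p = M)).card = 2 ^ lam M := by
          exact_mod_cast h6
        exact Nat.pow_right_injective le_rfl h10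
      rw [← h9, Finset.sum_boole]
  · -- raising operators
    have hne : K ≠ M := hkm.ne'
    rw [if_neg hne, zero_mul]
    apply first_order' (rowProd b (formOf l)) y (fun p => D' (y p)) (formOf l (mo c))
    intro t
    rw [rowProd_apply]
    have h3 := hact (Matrix.transvection M K t)
      (fun i j => y (i, j) + t • D' (y (i, j))) (by
        constructor
        · intro i j hij
          rw [Matrix.transvection, Matrix.add_apply, Matrix.one_apply_ne hij.ne',
            Matrix.single_apply_of_ne, add_zero]
          rintro ⟨rfl, rfl⟩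
          exact absurd hij (not_lt.2 hkm.le)
        · intro i
          rw [Matrix.transvection, Matrix.add_apply, Matrix.one_apply_eq,
            Matrix.single_apply_of_ne, add_zero]
          · exact one_ne_zero
          · rintro ⟨rfl, h5⟩
            exact hkm.ne h5.symm) (by
        intro i j
        simp only [y]
        rw [map_add, map_smul, hD'X, evL_X]
        funext v
        rw [Matrix.toLin'_apply, Matrix.transvection, Matrix.add_mulVec, Matrix.one_mulVec]
        rw [Pi.add_apply, Pi.add_apply, Pi.smul_apply]
        congr 1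
        by_cases hp : c (i, j) = M
        · rw [if_pos hp, evL_X, hp]
          simp [Matrix.mulVec, dotProduct, Matrix.single_apply]
        · rw [if_neg hp, map_zero]
          simp [Matrix.mulVec, dotProduct, Ne.symm hp])
    rw [h3]
    have h8 : ∏ i, (Matrix.transvection M K t) i i ^ lam i = 1 := by
      apply Finset.prod_eq_one
      intro i _
      rw [Matrix.transvection, Matrix.add_apply, Matrix.one_apply_eq,
        Matrix.single_apply_of_ne, add_zero, one_pow]
      rintro ⟨rfl, h5⟩
      exact hkm.ne h5.symm
    rw [h8, one_mul]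

/-- The relations of a highest weight vector, for all `M ≤ K` and all rows of forms. -/
theorem rel_formOf {a b : ℕ} (lam : Fin n → ℕ)
    (l : (Fin a → Fin b → (Fin n → ℂ)) →₀ ℂ) (hx : elOf l ∈ hwSpace lam (plethAct a b n))
    (M K : Fin n) (hMK : M ≤ K) (P : Fin a → MvPolynomial (Fin n) ℂ)
    (hP : ∀ i, P i ∈ linS n ^ b) :
    ∑ i, formOf l (Function.update P i (X K * pderiv M (P i))) =
      (if K = M then (lam M : ℂ) else 0) * formOf l P := by
  classical
  let D' : Derivation ℂ (MvPolynomial (Fin n) ℂ) (MvPolynomial (Fin n) ℂ) :=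
    (X K : MvPolynomial (Fin n) ℂ) • pderiv M
  have hD' : ∀ Q, D' Q = X K * pderiv M Q := fun Q => rfl
  have hD'X : ∀ j, D' (X j) = if j = M then X K else 0 := by
    intro j
    rw [hD']
    by_cases hj : j = M
    · rw [hj, pderiv_X_self, if_pos rfl, mul_one]
    · rw [pderiv_X_of_ne hj, if_neg hj, mul_zero]
  let c0 : ℂ := if K = M then (lam M : ℂ) else 0
  let Φ : MultilinearMap ℂ (fun _ : Fin a => MvPolynomial (Fin n) ℂ) ℂ :=
    opForm D'.toLinearMap (formOf l) - c0 • formOf l
  have hΦ : Φ P = 0 := by
    apply multilinear_zero_of_span Φ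
      (Set.range (fun c : Fin b → Fin n => ∏ j, (X (c j) : MvPolynomial (Fin n) ℂ)))
    · intro w hw
      choose c hc using hw
      let y : Fin a × Fin b → MvPolynomial (Fin n) ℂ := fun p => X (c p.1 p.2)
      have hw' : w = fun i => ∏ j, y (i, j) := by
        funext i
        exact (hc i).symm
      have hw2 : mo (fun p : Fin a × Fin b => c p.1 p.2) = w := by
        funext i
        exact hc i
      have h1 := opForm_prod D' (formOf l) y
      rw [← hw'] at h1
      have h2 : Φ w = opForm D'.toLinearMap (formOf l) w - c0 * formOf l w := rfl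
      rw [h2, h1, sub_eq_zero]
      have h3 := rel_mo lam l hx M K hMK (fun p => c p.1 p.2)
      rw [hw2] at h3
      rw [← h3]
      apply Finset.sum_congr rfl
      intro p _
      simp only [y]
      rw [hD'X]
      split_ifs with hcp
      · rw [rowProd_apply]
        congr 1
        funext i
        apply Finset.prod_congr rfl
        intro j _
        by_cases hp : (i, j) = p
        · rw [hp, Function.update_self, Function.update_self]
        · rw [Function.update_of_ne hp, Function.update_of_ne hp]
      · exact MultilinearMap.map_update_zero _ _ _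
    · intro i
      exact span_pow_eq _ _ (hP i)
  have h1 : Φ P = opForm D'.toLinearMap (formOf l) P - c0 * formOf l P := rfl
  rw [h1, sub_eq_zero, opForm_apply] at hΦ
  exact hΦ

/-- Vanishing on products of variables: one row with three tail variables. -/
theorem mo_eq_zero {a b : ℕ} (lam : Fin n → ℕ)
    (l : (Fin a → Fin b → (Fin n → ℂ)) →₀ ℂ) (hx : elOf l ∈ hwSpace lam (plethAct a b n))
    (two : Fin n) (h2 : lam two ≤ 2) (i0 : Fin a) (k : ℕ) :
    ∀ c : Fin a × Fin b → Fin n,
      3 ≤ (Finset.univ.filter (fun s : Fin b => two ≤ c (i0, s))).card →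
      3 ≤ k + (Finset.univ.filter (fun s : Fin b => c (i0, s) = two)).card →
      formOf l (mo c) = 0 := by
  classical
  induction k with
  | zero =>
    intro c _ hc
    have h1 := rel_mo lam l hx two two le_rfl c
    rw [if_pos rfl] at h1
    have h3 : ∀ p, (if c p = two then formOf l (mo (Function.update c p two)) else 0) =
        (if c p = two then 1 else 0) * formOf l (mo c) := by
      intro p
      split_ifs with hp
      · rw [one_mul]
        congr 2
        conv_lhs => rw [← hp]
        exact Function.update_eq_self p c
      · rw [zero_mul]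
    rw [Finset.sum_congr rfl (fun p _ => h3 p), ← Finset.sum_mul, Finset.sum_boole, ← sub_eq_zero,
      ← sub_mul] at h1
    refine (mul_eq_zero.1 h1).resolve_left ?_
    intro h4
    rw [sub_eq_zero] at h4
    have h5 : (Finset.univ.filter (fun p : Fin a × Fin b => c p = two)).card = lam two := by
      exact_mod_cast h4
    have h6 : (Finset.univ.filter (fun s : Fin b => c (i0, s) = two)).card ≤
        (Finset.univ.filter (fun p : Fin a × Fin b => c p = two)).card := by
      apply Finset.card_le_card_of_injOn (fun s => (i0, s))
      · intro s hs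
        simp only [Finset.coe_filter, Finset.mem_univ, true_and, Set.mem_ofPred_eq] at hs ⊢
        exact hs
      · intro s _ t _ hst
        exact congrArg Prod.snd hst
    omega
  | succ k ih =>
    intro c hc3 hc
    by_cases hcase : 3 ≤ k + (Finset.univ.filter (fun s : Fin b => c (i0, s) = two)).card
    · exact ih c hc3 hcase
    · -- a tail variable different from `X two`
      obtain ⟨s0, hs0, hs0'⟩ : ∃ s0, two ≤ c (i0, s0) ∧ c (i0, s0) ≠ two := by
        by_contra hno
        push Not at hno
        have h6 : (Finset.univ.filter (fun s : Fin b => two ≤ c (i0, s))) ⊆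
            (Finset.univ.filter (fun s : Fin b => c (i0, s) = two)) := by
          intro s hs
          rw [Finset.mem_filter] at hs ⊢
          exact ⟨hs.1, hno s hs.2⟩
        have h7 := Finset.card_le_card h6
        omega
      set K := c (i0, s0) with hK
      set c' := Function.update c (i0, s0) two with hc'
      have hrow : ∀ s, c' (i0, s) = if s = s0 then two else c (i0, s) := by
        intro s
        by_cases hs : s = s0
        · rw [if_pos hs, hs, hc', Function.update_self]
        · rw [if_neg hs, hc', Function.update_of_ne]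
          intro h
          exact hs (congrArg Prod.snd h)
      have htail : (Finset.univ.filter (fun s : Fin b => two ≤ c' (i0, s))) =
          (Finset.univ.filter (fun s : Fin b => two ≤ c (i0, s))) := by
        apply Finset.filter_congr
        intro s _
        rw [hrow]
        by_cases hs : s = s0
        · rw [if_pos hs, hs]
          exact ⟨fun _ => hs0, fun _ => le_rfl⟩
        · rw [if_neg hs]
      have hdeg : (Finset.univ.filter (fun s : Fin b => c' (i0, s) = two)) =
          insert s0 (Finset.univ.filter (fun s : Fin b => c (i0, s) = two)) := by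
        ext s
        rw [Finset.mem_insert, Finset.mem_filter, Finset.mem_filter, hrow]
        by_cases hs : s = s0
        · simp [hs]
        · simp [hs]
      have hnotin : s0 ∉ (Finset.univ.filter (fun s : Fin b => c (i0, s) = two)) := by
        rw [Finset.mem_filter]
        exact fun h => hs0' h.2
      have hdeg' : (Finset.univ.filter (fun s : Fin b => c' (i0, s) = two)).card =
          (Finset.univ.filter (fun s : Fin b => c (i0, s) = two)).card + 1 := by
        rw [hdeg, Finset.card_insert_of_notMem hnotin]
      have hrel := rel_mo lam l hx two K hs0 c'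
      rw [if_neg hs0', zero_mul] at hrel
      have hterm : ∀ p : Fin a × Fin b,
          (if c' p = two then formOf l (mo (Function.update c' p K)) else 0) =
          (if p.1 = i0 ∧ c' p = two then 1 else 0) * formOf l (mo c) := by
        rintro ⟨i, s⟩
        by_cases hp : c' (i, s) = two
        · rw [if_pos hp]
          by_cases hi : i = i0
          · rw [if_pos ⟨hi, hp⟩, one_mul]
            subst hi
            congr 1
            funext i'
            by_cases hi' : i' = i
            · subst hi'
              unfold mo
              rw [← Equiv.prod_comp (Equiv.swap s s0) (fun j => (X (c (i', j)) : MvPolynomial (Fin n) ℂ))]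
              apply Finset.prod_congr rfl
              intro j _
              congr 1
              by_cases hj : j = s
              · rw [hj, Function.update_self, Equiv.swap_apply_left]
              · rw [Function.update_of_ne (fun h => hj (congrArg Prod.snd h)), hrow]
                by_cases hj0 : j = s0
                · rw [if_pos hj0, hj0, Equiv.swap_apply_right]
                  have hss : s ≠ s0 := fun h => hj (hj0.trans h.symm)
                  rw [hrow, if_neg hss] at hp
                  exact hp.symm
                · rw [if_neg hj0, Equiv.swap_apply_of_ne_of_ne hj hj0]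
            · unfold mo
              apply Finset.prod_congr rfl
              intro j _
              rw [Function.update_of_ne (fun h => hi' (congrArg Prod.fst h)), hc',
                Function.update_of_ne (fun h => hi' (congrArg Prod.fst h))]
          · rw [if_neg (fun h => hi h.1), zero_mul]
            apply ih
            · have h8 : (Finset.univ.filter (fun s' : Fin b =>
                  two ≤ Function.update c' (i, s) K (i0, s'))) =
                  (Finset.univ.filter (fun s' : Fin b => two ≤ c' (i0, s'))) := by
                apply Finset.filter_congr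
                intro s' _
                rw [Function.update_of_ne (fun h => hi (congrArg Prod.fst h).symm)]
              rw [h8, htail]
              exact hc3
            · have h8 : (Finset.univ.filter (fun s' : Fin b =>
                  Function.update c' (i, s) K (i0, s') = two)) =
                  (Finset.univ.filter (fun s' : Fin b => c' (i0, s') = two)) := by
                apply Finset.filter_congr
                intro s' _
                rw [Function.update_of_ne (fun h => hi (congrArg Prod.fst h).symm)]
              rw [h8, hdeg']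
              omega
        · rw [if_neg hp, if_neg (fun h => hp h.2), zero_mul]
      rw [Finset.sum_congr rfl (fun p _ => hterm p), ← Finset.sum_mul, Finset.sum_boole] at hrel
      refine (mul_eq_zero.1 hrel).resolve_left ?_
      rw [Nat.cast_eq_zero, Finset.card_eq_zero]
      intro hem
      have h9 : (i0, s0) ∈ (Finset.univ.filter (fun x : Fin a × Fin b => x.1 = i0 ∧ c' x = two)) := by
        rw [Finset.mem_filter]
        refine ⟨Finset.mem_univ _, rfl, ?_⟩
        rw [hrow, if_pos rfl]
      rw [hem] at h9
      exact absurd h9 (Finset.notMem_empty _)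

/-- The span of the variables `X 0, X 1`. -/
noncomputable def Bs (n : ℕ) : Submodule ℂ (MvPolynomial (Fin n) ℂ) :=
  Submodule.span ℂ {x | ∃ j : Fin n, (j : ℕ) < 2 ∧ x = X j}

/-- The span of the tail variables `X j`, `2 ≤ j`. -/
noncomputable def Zs (n : ℕ) : Submodule ℂ (MvPolynomial (Fin n) ℂ) :=
  Submodule.span ℂ {x | ∃ j : Fin n, 2 ≤ (j : ℕ) ∧ x = X j}

theorem Bs_sup_Zs (n : ℕ) : Bs n ⊔ Zs n = linS n := by
  rw [Bs, Zs, linS, ← Submodule.span_union]
  congr 1
  ext x
  constructor
  · rintro (⟨j, _, rfl⟩ | ⟨j, _, rfl⟩) <;> exact ⟨j, rfl⟩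
  · rintro ⟨j, rfl⟩
    rcases lt_or_ge (j : ℕ) 2 with hj | hj
    · exact Or.inl ⟨j, hj, rfl⟩
    · exact Or.inr ⟨j, hj, rfl⟩

theorem Bs_eq (n : ℕ) : Bs (n + 2) =
    Submodule.span ℂ {(X 0 : MvPolynomial (Fin (n + 2)) ℂ), X 1} := by
  rw [Bs]
  congr 1
  ext x
  simp only [Set.mem_ofPred_eq, Set.mem_insert_iff, Set.mem_singleton_iff]
  constructor
  · rintro ⟨j, hj, rfl⟩
    have : j = 0 ∨ j = 1 := by
      rcases j with ⟨j, hj'⟩
      simp only at hj
      interval_cases j
      · left; rfl
      · right; rfl
    rcases this with rfl | rfl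
    · exact Or.inl rfl
    · exact Or.inr rfl
  · rintro (rfl | rfl)
    · exact ⟨0, by simp, rfl⟩
    · exact ⟨1, by simp, rfl⟩

/-- `Z^3 W^(b-3)` is spanned by the products of `b` variables with three tail variables. -/
theorem Zs_pow_le (n b : ℕ) (hb : 3 ≤ b) : Zs n ^ 3 * linS n ^ (b - 3) ≤
    Submodule.span ℂ {x | ∃ c : Fin b → Fin n,
      3 ≤ (Finset.univ.filter (fun s : Fin b => 2 ≤ ((c s : Fin n) : ℕ))).card ∧
        x = ∏ s, (X (c s) : MvPolynomial (Fin n) ℂ)} := by
  classical
  obtain ⟨e, rfl⟩ : ∃ e, b = 3 + e := ⟨b - 3, by omega⟩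
  rw [Nat.add_sub_cancel_left]
  have hZ : Zs n = Submodule.span ℂ (Set.range
      (fun j : {j : Fin n // 2 ≤ (j : ℕ)} => (X (j : Fin n) : MvPolynomial (Fin n) ℂ))) := by
    rw [Zs]
    congr 1
    ext x
    constructor
    · rintro ⟨j, hj, rfl⟩
      exact ⟨⟨j, hj⟩, rfl⟩
    · rintro ⟨⟨j, hj⟩, rfl⟩
      exact ⟨j, hj, rfl⟩
  have h1 : Zs n ^ 3 ≤ Submodule.span ℂ (Set.range (fun c : Fin 3 → {j : Fin n // 2 ≤ (j : ℕ)} =>
      ∏ s, (X (c s : Fin n) : MvPolynomial (Fin n) ℂ))) := by
    rw [hZ]
    exact span_pow_eq _ 3
  have h2 : linS n ^ e ≤ Submodule.span ℂ (Set.range (fun c : Fin e → Fin n =>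
      ∏ s, (X (c s) : MvPolynomial (Fin n) ℂ))) := span_pow_eq _ e
  refine (mul_le_mul' h1 h2).trans ?_
  rw [Submodule.span_mul_span, Submodule.span_le]
  rintro _ ⟨_, ⟨c, rfl⟩, _, ⟨d, rfl⟩, rfl⟩
  apply Submodule.subset_span
  refine ⟨Fin.append (fun s => (c s : Fin n)) d, ?_, ?_⟩
  · have h3 : (Finset.univ.map (Fin.castAddEmb e : Fin 3 ↪ Fin (3 + e))) ⊆
        (Finset.univ.filter (fun s : Fin (3 + e) =>
          2 ≤ ((Fin.append (fun s => (c s : Fin n)) d s : Fin n) : ℕ))) := by
      intro s hs
      rw [Finset.mem_map] at hs
      obtain ⟨t, _, rfl⟩ := hs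
      rw [Finset.mem_filter]
      refine ⟨Finset.mem_univ _, ?_⟩
      have h4 : Fin.append (fun s => (c s : Fin n)) d ((Fin.castAddEmb e) t) = (c t : Fin n) := by
        rw [Fin.castAddEmb_apply, Fin.append_left]
      rw [h4]
      exact (c t).2
    have h5 := Finset.card_le_card h3
    rw [Finset.card_map, Finset.card_univ, Fintype.card_fin] at h5
    exact h5
  · rw [Fin.prod_univ_add]
    refine congrArg₂ (· * ·) ?_ ?_
    · apply Finset.prod_congr rfl
      intro s _
      rw [Fin.append_left]
    · apply Finset.prod_congr rfl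
      intro s _
      rw [Fin.append_right]

theorem multilinear_zero_of_span' {κ : Type*} [Fintype κ] {M N : Type*} [AddCommGroup M]
    [Module ℂ M] [AddCommGroup N] [Module ℂ N] (Φ : MultilinearMap ℂ (fun _ : κ => M) N)
    (S : κ → Set M) (h : ∀ w : κ → M, (∀ i, w i ∈ S i) → Φ w = 0) (w : κ → M)
    (hw : ∀ i, w i ∈ Submodule.span ℂ (S i)) : Φ w = 0 := by
  classical
  have h1 : ∀ i, ∃ l : S i →₀ ℂ, Finsupp.linearCombination ℂ (Subtype.val : S i → M) l = w i := by
    intro i
    rw [← Finsupp.mem_span_iff_linearCombination]
    exact hw i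
  choose l hl using h1
  have h2 : w = fun i => ∑ r ∈ (l i).support, (l i r) • (r : M) := by
    funext i
    rw [← hl i, Finsupp.linearCombination_apply, Finsupp.sum]
  rw [h2, MultilinearMap.map_sum_finset]
  apply Finset.sum_eq_zero
  intro r _
  rw [MultilinearMap.map_smul_univ, h _ (fun i => (r i).2), smul_zero]

/-- **(V3).** A highest weight form of weight `lam` with `lam 2 ≤ 2` vanishes as soon as one of
its arguments lies in `Z^3 W^(b-3)` (`W` = all linear forms, `Z` = the span of the tail
variables `X j`, `2 ≤ j`). -/
theorem v3_lin {a b : ℕ} (lam : Fin n → ℕ)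
    (l : (Fin a → Fin b → (Fin n → ℂ)) →₀ ℂ) (hx : elOf l ∈ hwSpace lam (plethAct a b n))
    (h2 : ∀ i : Fin n, (i : ℕ) = 2 → lam i ≤ 2) (hb : 3 ≤ b)
    (P : Fin a → MvPolynomial (Fin n) ℂ) (hP : ∀ i, P i ∈ linS n ^ b)
    (h3 : ∃ i, P i ∈ Zs n ^ 3 * linS n ^ (b - 3)) : formOf l P = 0 := by
  classical
  obtain ⟨i0, hi0⟩ := h3
  let T : Fin a → Set (MvPolynomial (Fin n) ℂ) := fun i =>
    if i = i0 then {x | ∃ c : Fin b → Fin n,
      3 ≤ (Finset.univ.filter (fun s : Fin b => 2 ≤ ((c s : Fin n) : ℕ))).card ∧
        x = ∏ s, (X (c s) : MvPolynomial (Fin n) ℂ)}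
    else Set.range (fun c : Fin b → Fin n => ∏ s, (X (c s) : MvPolynomial (Fin n) ℂ))
  apply multilinear_zero_of_span' (formOf l) T
  · intro w hw
    have h6 : ∀ i, ∃ c : Fin b → Fin n, (i = i0 →
        3 ≤ (Finset.univ.filter (fun s : Fin b => 2 ≤ ((c s : Fin n) : ℕ))).card) ∧
        w i = ∏ s, (X (c s) : MvPolynomial (Fin n) ℂ) := by
      intro i
      have h7 := hw i
      by_cases hi : i = i0
      · simp only [T, if_pos hi] at h7
        obtain ⟨c, hc, hcw⟩ := h7
        exact ⟨c, fun _ => hc, hcw⟩
      · simp only [T, if_neg hi] at h7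
        obtain ⟨c, hcw⟩ := h7
        exact ⟨c, fun h => absurd h hi, hcw.symm⟩
    choose c hc hcw using h6
    have hw' : w = mo (fun p : Fin a × Fin b => c p.1 p.2) := by
      funext i
      exact hcw i
    have h8 := hc i0 rfl
    -- there is a variable `X 2`
    obtain ⟨s0, hs0⟩ : ∃ s0, 2 ≤ ((c i0 s0 : Fin n) : ℕ) := by
      have h9 : (Finset.univ.filter (fun s : Fin b => 2 ≤ ((c i0 s : Fin n) : ℕ))).Nonempty := by
        rw [← Finset.card_pos]
        omega
      obtain ⟨s0, hs0⟩ := h9
      rw [Finset.mem_filter] at hs0
      exact ⟨s0, hs0.2⟩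
    have hn : 2 < n := lt_of_le_of_lt hs0 (c i0 s0).2
    rw [hw']
    refine mo_eq_zero lam l hx ⟨2, hn⟩ (h2 _ rfl) i0 3 _ ?_ (by omega)
    have h10 : (Finset.univ.filter (fun s : Fin b => (⟨2, hn⟩ : Fin n) ≤ c i0 s)) =
        (Finset.univ.filter (fun s : Fin b => 2 ≤ ((c i0 s : Fin n) : ℕ))) := by
      apply Finset.filter_congr
      intro s _
      rw [Fin.le_def]
    simp only
    rw [h10]
    exact h8
  · intro i
    by_cases hi : i = i0
    · simp only [T, if_pos hi]
      rw [hi]
      exact Zs_pow_le n b hb hi0
    · simp only [T, if_neg hi]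
      exact span_pow_eq _ _ (hP i)

/-- **(V3)**, in the letters `B ⊔ Z`. -/
theorem v3 {a b : ℕ} (lam : Fin n → ℕ)
    (l : (Fin a → Fin b → (Fin n → ℂ)) →₀ ℂ) (hx : elOf l ∈ hwSpace lam (plethAct a b n))
    (h2 : ∀ i : Fin n, (i : ℕ) = 2 → lam i ≤ 2) (hb : 3 ≤ b)
    (P : Fin a → MvPolynomial (Fin n) ℂ) (hP : ∀ i, P i ∈ (Bs n ⊔ Zs n) ^ b)
    (h3 : ∃ i, P i ∈ Zs n ^ 3 * (Bs n ⊔ Zs n) ^ (b - 3)) : formOf l P = 0 := by
  rw [Bs_sup_Zs] at hP h3
  exact v3_lin lam l hx h2 hb P hP h3

end Vale.Agent.P181.H219
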